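import Vale.Agent.P123.H686.CcDefs
import Vale.Agent.P123.H686.Mat5

namespace Vale.Agent.Results.P123.CompleteCrouzeix

open Polynomial Vale.Agent.P123.H686

/-- **Crouzeix's conjecture, completely bounded form.** For every size `n ≥ 1`:

* (1) the least constant `C` such that `‖P(A)‖ ≤ C sup_{z ∈ W(A)} ‖P(z)‖` for all `n × n` matrices
  `P = (Pᵢⱼ)` of polynomials and all bounded operators `A` on all nonzero complex Hilbert spaces
  is exactly `2`; here `P(A) = (Pᵢⱼ(A))` acts on `H ⊕ ⋯ ⊕ H` and `P(z) = (Pᵢⱼ(z))` on `ℂⁿ`;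
* (2) if `Q` has no zero in the closure of `W(A)`, then `Q(A)` is invertible, and the least
  constant in the same inequality for all `n × n` matrices `(Pᵢⱼ / Q)` of rational functions
  without poles in the closure of `W(A)` is exactly `2`: the closure of the numerical range is a
  *complete* `2`-spectral set;
* (3) Crouzeix's conjecture itself: the least constant `C` such that
  `‖P(A)‖ ≤ C sup_{z ∈ W(A)} |P(z)|` for all `A` and all polynomials `P` is exactly `2`. -/
theorem result.{u} :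
    (∀ n : ℕ, 1 ≤ n → IsLeast {C : ℝ | ∀ (H : Type u) [NormedAddCommGroup H]
      [InnerProductSpace ℂ H] [CompleteSpace H] [Nontrivial H] (A : H →L[ℂ] H),
      PolyBound n A C} 2) ∧
    ((∀ (H : Type u) [NormedAddCommGroup H]
      [InnerProductSpace ℂ H] [CompleteSpace H] [Nontrivial H] (A : H →L[ℂ] H), UnitOff A) ∧
      ∀ n : ℕ, 1 ≤ n → IsLeast {C : ℝ | ∀ (H : Type u) [NormedAddCommGroup H]
        [InnerProductSpace ℂ H] [CompleteSpace H] [Nontrivial H] (A : H →L[ℂ] H),
        RatBound n A C} 2) ∧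
    IsLeast {C : ℝ | ∀ (H : Type u) [NormedAddCommGroup H]
      [InnerProductSpace ℂ H] [CompleteSpace H] [Nontrivial H] (A : H →L[ℂ] H),
      ScalarBound A C} 2 := by
  have hlow : ∀ C : ℝ, (∀ (H : Type u) [NormedAddCommGroup H]
      [InnerProductSpace ℂ H] [CompleteSpace H] [Nontrivial H] (A : H →L[ℂ] H),
      ScalarBound A C) → 2 ≤ C := fun C hC =>
    Vale.Agent.P123.two_le_of_bound fun H _ _ _ _ A P => hC H A P
  refine ⟨fun n hn => ⟨fun H _ _ _ _ A => polyBound_two A n, fun C hC => hlow C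
      fun H _ _ _ _ A => scalarBound_of_polyBound hn (hC H A)⟩,
    ⟨?_, fun n hn => ⟨fun H _ _ _ _ A => ratBound_two A n, fun C hC => hlow C
      fun H _ _ _ _ A => scalarBound_of_polyBound hn (polyBound_of_ratBound (hC H A))⟩⟩,
    fun H _ _ _ _ A P => Vale.Agent.P123.crouzeix_bound A P, hlow⟩
  intro H _ _ _ _ A Q hQ
  obtain ⟨B, h1, h2, -⟩ := Vale.Agent.P123.H880.rational_bound A 1 Q hQ
  exact ⟨⟨aeval A Q, B, h2, h1⟩, rfl⟩

end Vale.Agent.Results.P123.CompleteCrouzeix
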