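import Vale.Agent.P123.H880.Defs
import Vale.Agent.P123.H880.Rational

namespace Vale.Agent.Results.P123.RationalCrouzeix

open Polynomial Vale.Agent.P123.H880

/-- **Crouzeix's conjecture for rational functions.** If `Q` has no zero in the closure of the
numerical range of `A`, then `Q(A)` is invertible; and the least constant `C` with
`‖P(A) Q(A)⁻¹‖ ≤ C * sup_{z ∈ W(A)} |P(z)/Q(z)|` for all bounded `A` on all nonzero complex Hilbert
spaces and all such `P`, `Q` is exactly `2`; in particular `‖P(A)‖ ≤ 2 sup_{W(A)} |P|`. -/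
theorem result.{u} :
    (∀ (H : Type u) [NormedAddCommGroup H] [InnerProductSpace ℂ H] [CompleteSpace H]
      [Nontrivial H] (A : H →L[ℂ] H) (Q : ℂ[X]), NoZero A Q → IsUnit (aeval A Q)) ∧
    IsLeast {C : ℝ | RatConst.{u} C} 2 ∧
    (∀ (H : Type u) [NormedAddCommGroup H] [InnerProductSpace ℂ H] [CompleteSpace H]
      [Nontrivial H] (A : H →L[ℂ] H) (P : ℂ[X]),
      ‖aeval A P‖ ≤ 2 * sSup ((fun z => ‖P.eval z‖) '' W A)) := by
  refine ⟨?_, ⟨?_, ?_⟩, ?_⟩
  · intro H _ _ _ _ A Q hQ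
    obtain ⟨B, h1, h2, -⟩ := Vale.Agent.P123.H880.rational_bound A 1 Q hQ
    exact ⟨⟨aeval A Q, B, h2, h1⟩, rfl⟩
  · intro H _ _ _ _ A P Q hQ
    obtain ⟨B, h1, h2, h3⟩ := Vale.Agent.P123.H880.rational_bound A P Q hQ
    have h4 : Ring.inverse (aeval A Q) = B :=
      Ring.inverse_unit (⟨aeval A Q, B, h2, h1⟩ : (H →L[ℂ] H)ˣ)
    rw [h4]
    exact h3
  · intro C hC
    apply Vale.Agent.P123.two_le_of_bound (C := C)
    intro H _ _ _ _ A P
    have := hC H A P 1 (fun z _ => by simp)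
    unfold supRat W at this
    simpa using this
  · intro H _ _ _ _ A P
    exact Vale.Agent.P123.crouzeix_bound A P

end Vale.Agent.Results.P123.RationalCrouzeix
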