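import Vale.Agent.P123.H686.CcDefs
import Vale.Agent.P123.H628.SimDefs
import Vale.Agent.P123.H628.St6

namespace Vale.Agent.Results.P123.SimilarityConstant

open Polynomial Vale.Agent.P123.H686 Vale.Agent.P123.H628

/-- **Crouzeix's conjecture, similarity form.**

* (1) For every bounded operator `A` on a nonzero complex Hilbert space there is an invertible
  operator `S` with `‖S‖ ‖S⁻¹‖ ≤ 2` such that the closure of the numerical range `W(A)` is a
  complete spectral set of `S⁻¹ A S`, and `2` is the least constant with this property: every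
  Crouzeix inequality `‖f(A)‖ ≤ 2 sup_{W(A)} |f|`, also for matrix-valued `f`, comes from one
  similarity, `f(A) = S f(S⁻¹AS) S⁻¹` with `‖f(S⁻¹AS)‖ ≤ sup_{W(A)} |f|`;
* (2) Crouzeix's conjecture itself: the least constant `C` such that
  `‖P(A)‖ ≤ C sup_{z ∈ W(A)} |P(z)|` for all `A` and all polynomials `P` is exactly `2`. -/
theorem result.{u} :
    IsLeast {C : ℝ | ∀ (H : Type u) [NormedAddCommGroup H]
      [InnerProductSpace ℂ H] [CompleteSpace H] [Nontrivial H] (A : H →L[ℂ] H),
      SimilarSpectral A C} 2 ∧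
    IsLeast {C : ℝ | ∀ (H : Type u) [NormedAddCommGroup H]
      [InnerProductSpace ℂ H] [CompleteSpace H] [Nontrivial H] (A : H →L[ℂ] H),
      ScalarBound A C} 2 := by
  have hlow : ∀ C : ℝ, (∀ (H : Type u) [NormedAddCommGroup H]
      [InnerProductSpace ℂ H] [CompleteSpace H] [Nontrivial H] (A : H →L[ℂ] H),
      ScalarBound A C) → 2 ≤ C := fun C hC =>
    Vale.Agent.P123.two_le_of_bound fun H _ _ _ _ A P => hC H A P
  exact ⟨⟨fun H _ _ _ _ A => similar_two A, fun C hC => hlow C
      fun H _ _ _ _ A => scalarBound_of_similar (hC H A)⟩,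
    fun H _ _ _ _ A P => Vale.Agent.P123.crouzeix_bound A P, hlow⟩

end Vale.Agent.Results.P123.SimilarityConstant
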